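import Vale.Agent.P168Ferro.Proof

namespace Vale.Agent.Results.P168.FerroMember

open MeasureTheory ProbabilityTheory Vale.Agent.P168Ferro
open scoped NNReal

theorem result :
    (∀ (K : ℕ) (lam : ℝ≥0), 2 ≤ K → Even K → 1 < lam →
      (∃ (Ω : Type) (_ : MeasurableSpace Ω) (M : Model K Ω),
        iIndepFun (fun j ω s => M.f j s ω) M.P ∧
        (∀ i j, IdentDistrib (fun ω s => M.f i s ω) (fun ω s => M.f j s ω) M.P M.P) ∧
        infPhi M lam ≤ ((Real.log 2 : ℝ) : EReal) ∧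
        ∃ δ : ℝ, 0 < δ ∧ ∀ N : ℕ, N ≠ 0 → Real.log 2 + δ ≤ pressure M lam N) ∧
      (∃ (Ω : Type) (_ : MeasurableSpace Ω) (M : Model K Ω),
        (∃ b : ℝ, ∀ᵐ ω ∂M.P, M.b ω = b) ∧
        (∀ π : Equiv.Perm (Fin K),
          IdentDistrib (fun ω j s => M.f (π j) s ω) (fun ω j s => M.f j s ω) M.P M.P) ∧
        infPhi M lam ≤ ((Real.log 2 : ℝ) : EReal) ∧
        ∃ δ : ℝ, 0 < δ ∧ ∀ N : ℕ, N ≠ 0 → Real.log 2 + δ ≤ pressure M lam N)) ∧
    ¬ ∀ (K : ℕ) (lam : ℝ≥0) (Ω : Type) (_ : MeasurableSpace Ω) (M : Model K Ω),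
        2 ≤ K → Even K → 0 < lam → EqualityHolds M lam := by
  refine ⟨fun K lam hK _ hlam => ?_, fun hall => ?_⟩
  · have : NeZero K := ⟨by omega⟩
    obtain ⟨c, h0, h1, hc⟩ := exists_c (lam : ℝ) (by exact_mod_cast hlam)
    exact ⟨⟨Fin K → Bool, inferInstance, mkModel c h0 h1 (QA K) QA_mean, QA_indep, QA_ident,
        gap_of hK hc⟩,
      ⟨Fin K → Bool, inferInstance, mkModel c h0 h1 (QB K) QB_mean, ⟨-c, QB_b c⟩, QB_exch,
        gap_of hK hc⟩⟩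
  · obtain ⟨c, h0, h1, hc⟩ := exists_c ((2 : ℝ≥0) : ℝ) (by norm_num)
    exact not_equality (gap_of le_rfl hc)
      (hall 2 2 _ _ (mkModel c h0 h1 (QA 2) QA_mean) le_rfl even_two (by norm_num))

end Vale.Agent.Results.P168.FerroMember
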